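/-
P235-LL (helper555).  A connected minor (with at least two vertices) of a connected plane graph is
plane; the form in branch sets.  Also: connected subgraphs, induced subgraphs.
-/
import Vale.Agent.P235.H134.Grid.MinorRow
import Vale.Agent.P235.R2.H582.Contract
import Vale.Agent.P235.R2.H611.Quo

set_option linter.all false
set_option autoImplicit false

namespace Vale.Agent.P235.H555

open SimpleGraph Vale.Agent.P235.H134 Vale.Agent.P235.R2.H105

/-- plane: there is a plane rotation system -/
def Pl {V : Type} (G : SimpleGraph V) : Prop := ∃ σ : Equiv.Perm G.Dart, PlaneMap G σ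

/-- deleting one edge without disconnecting -/
theorem pl_del {V : Type} [Finite V] {G : SimpleGraph V} {a b : V} (hc : G.Connected)
    (hab : G.Adj a b) (hc' : (G.deleteEdges {s(a, b)}).Connected) (hP : Pl G) :
    Pl (G.deleteEdges {s(a, b)}) := by
  obtain ⟨σ, hσ⟩ := hP
  obtain ⟨σ', h1, -⟩ := del_step hσ ⟨(a, b), hab⟩ (two_sides hc hσ ⟨(a, b), hab⟩ hc') hc'
  exact ⟨σ', h1⟩

/-- a connected spanning subgraph of a plane graph is plane -/
theorem pl_le {V : Type} [Finite V] {H : SimpleGraph V} (hH : H.Connected) {K : SimpleGraph V}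
    (hle : H ≤ K) (hP : Pl K) : Pl H := by
  have main : ∀ (n : ℕ) (K : SimpleGraph V), H ≤ K → (K.edgeSet \ H.edgeSet).ncard = n →
      Pl K → Pl H := by
    intro n
    induction n with
    | zero =>
      intro K hK hn hFK
      rw [Set.ncard_eq_zero (Set.toFinite _), Set.sdiff_eq_empty, edgeSet_subset_edgeSet] at hn
      rw [le_antisymm hK hn]; exact hFK
    | succ n ih =>
      intro K hK hn hFK
      obtain ⟨e, he⟩ : (K.edgeSet \ H.edgeSet).Nonempty := by
        rw [← Set.ncard_pos (Set.toFinite _)]; omega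
      have hle : H ≤ K.deleteEdges {e} := by
        rw [← edgeSet_subset_edgeSet, edgeSet_deleteEdges]
        intro e' he'
        exact ⟨edgeSet_subset_edgeSet.2 hK he',
          fun h => he.2 (by rw [← Set.mem_singleton_iff.1 h]; exact he')⟩
      refine ih (K.deleteEdges {e}) hle ?_ ?_
      · have : (K.deleteEdges {e}).edgeSet \ H.edgeSet = (K.edgeSet \ H.edgeSet) \ {e} := by
          rw [edgeSet_deleteEdges]
          ext z
          simp only [Set.mem_sdiff, Set.mem_singleton_iff]
          tauto
        rw [this, Set.ncard_sdiff_singleton_of_mem he, hn]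
        rfl
      · induction e using Sym2.ind with
        | _ a b =>
          exact pl_del (hH.mono hK) (K.mem_edgeSet.1 he.1) (hH.mono hle) hFK
  exact main _ K hle rfl hP

/-- **MINOR**: a connected minor with at least two vertices of a connected plane graph is plane -/
theorem planeMap_of_isMinor {V W : Type} [Finite V] [Finite W] {G : SimpleGraph V}
    {H : SimpleGraph W} (hG : G.Connected) (hH : H.Connected) (hW : 2 ≤ Nat.card W)
    (hm : IsMinor H G) (hP : ∃ σ : Equiv.Perm G.Dart, PlaneMap G σ) :
    ∃ σ : Equiv.Perm H.Dart, PlaneMap H σ := by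
  obtain ⟨φ, h1, h2⟩ := exists_model hG hH.nonempty hm
  have h3 := Quo.rowQuo Vale.Agent.P235.R2.H582.Contract.rowCon V W G φ hG hP h1 hW
  refine pl_le hH (K := Quo.quo G φ) (fun a b hab => ?_) h3
  obtain ⟨h, x, y, hx, hy, hxy⟩ := h2 hab
  exact ⟨h, x, y, hxy, hx, hy⟩

/-- the same with the branch sets `μ` spelled out -/
theorem pl_of_branch {V W : Type} [Finite V] [Finite W] {G : SimpleGraph V}
    {H : SimpleGraph W} (hG : G.Connected) (hH : H.Connected) (hW : 2 ≤ Nat.card W)
    (μ : W → Set V) (h1 : ∀ a, (G.induce (μ a)).Connected)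
    (h2 : ∀ a b, a ≠ b → Disjoint (μ a) (μ b))
    (h3 : ∀ a b, H.Adj a b → ∃ x ∈ μ a, ∃ y ∈ μ b, G.Adj x y) (hP : Pl G) : Pl H :=
  planeMap_of_isMinor hG hH hW ⟨μ, h1, h2, h3⟩ hP

/-- an injective homomorphism gives a minor -/
theorem isMinor_of_emb {V W : Type} {G : SimpleGraph V} {H : SimpleGraph W} (f : W → V)
    (hf : Function.Injective f) (hadj : ∀ a b, H.Adj a b → G.Adj (f a) (f b)) : IsMinor H G := by
  refine ⟨fun a => {f a}, fun a => ?_, fun a b hab => ?_, fun a b hab => ?_⟩
  · have : Nonempty ({f a} : Set V) := ⟨⟨f a, rfl⟩⟩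
    refine ⟨fun x y => ?_⟩
    obtain ⟨x, hx⟩ := x
    obtain ⟨y, hy⟩ := y
    have : x = y := (Set.mem_singleton_iff.1 hx).trans (Set.mem_singleton_iff.1 hy).symm
    subst this
    exact Reachable.refl _
  · rw [Set.disjoint_singleton]
    exact fun h => hab (hf h)
  · exact ⟨f a, rfl, f b, rfl, hadj a b hab⟩

/-- a connected graph with at least two vertices which embeds into a plane graph is plane -/
theorem pl_of_emb {V W : Type} [Finite V] [Finite W] {G : SimpleGraph V} {H : SimpleGraph W}
    (hG : G.Connected) (hH : H.Connected) (hW : 2 ≤ Nat.card W) (f : W → V)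
    (hf : Function.Injective f) (hadj : ∀ a b, H.Adj a b → G.Adj (f a) (f b)) (hP : Pl G) :
    Pl H :=
  planeMap_of_isMinor hG hH hW (isMinor_of_emb f hf hadj) hP

/-- connected induced subgraphs of plane graphs are plane -/
theorem pl_induce {V : Type} [Finite V] {G : SimpleGraph V} (hG : G.Connected) {A : Set V}
    (hA : (G.induce A).Connected) (hcard : 2 ≤ Nat.card A) (hP : Pl G) : Pl (G.induce A) :=
  pl_of_emb hG hA hcard (fun x => x.1) Subtype.val_injective (fun _ _ h => h) hP

end Vale.Agent.P235.H555
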