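/-
P235-LL (helper555).  Reduction of a distortion bound for plane graphs with at most `n` vertices to
2-connected ones.
-/
import Vale.Agent.P235.H555.Minor
import Vale.Agent.P235.Comp.Core

set_option linter.all false
set_option autoImplicit false

namespace Vale.Agent.P235.H555

open SimpleGraph

/-- at most two vertices -/
theorem distortion_two {V : Type} [Finite V] {G : SimpleGraph V} (hc : G.Connected)
    (h2 : Nat.card V ≤ 2) : DistortionLE G 1 := by
  classical
  intro ℓ hℓ
  have hd := pathDist_isMet hc hℓ
  obtain ⟨a⟩ := hc.nonempty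
  have key : ∀ x y : V, x ≠ a → y ≠ a → x = y := by
    intro x y hx hy
    by_contra hne
    have h3 : ({a, x, y} : Set V).ncard = 3 := by
      rw [Set.ncard_eq_three]
      exact ⟨a, x, y, hx.symm, hy.symm, hne, rfl⟩
    have h4 : ({a, x, y} : Set V).ncard ≤ Nat.card V := by
      rw [← Set.ncard_univ]
      exact Set.ncard_le_ncard (Set.subset_univ _) (Set.toFinite _)
    omega
  have hL : EmbedsL1 (pathDist G ℓ) 1 := by
    refine (isL1_line (fun x => pathDist G ℓ a x)).embeds ?_ ?_
    all_goals
      intro x y
      have h0 : pathDist G ℓ x y = |pathDist G ℓ a x - pathDist G ℓ a y| := by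
        by_cases hx : x = a
        · subst hx
          rw [hd.self, zero_sub, abs_neg, abs_of_nonneg (hd.nonneg _ _)]
        · by_cases hy : y = a
          · subst hy
            rw [hd.self, sub_zero, abs_of_nonneg (hd.nonneg _ _), hd.symm]
          · rw [key x y hx hy, sub_self, abs_zero, hd.self]
      linarith
  exact hL


/-- **BLK**: a distortion bound for the 2-connected plane graphs with at most `n` vertices gives
the same bound for all connected plane graphs with at most `n` vertices -/
theorem blocks {C : ℝ} (hC : 1 ≤ C) {n : ℕ}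
    (h2 : ∀ (V : Type) [Finite V] (G : SimpleGraph V), G.Connected →
      (∃ σ : Equiv.Perm G.Dart, PlaneMap G σ) → 3 ≤ Nat.card V → Nat.card V ≤ n →
      (∀ v, (G.induce {x | x ≠ v}).Connected) → DistortionLE G C) :
    ∀ (V : Type) [Finite V] (G : SimpleGraph V), G.Connected →
      (∃ σ : Equiv.Perm G.Dart, PlaneMap G σ) → Nat.card V ≤ n → DistortionLE G C := by
  have main : ∀ (m : ℕ) (V : Type) [Finite V] (G : SimpleGraph V), Nat.card V = m → G.Connected →
      (∃ σ : Equiv.Perm G.Dart, PlaneMap G σ) → Nat.card V ≤ n → DistortionLE G C := by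
    intro m
    induction m using Nat.strong_induction_on with
    | _ m ih =>
    intro V _ G hm hc hP hn
    by_cases hV : Nat.card V ≤ 2
    · exact (distortion_two hc hV).mono hC
    by_cases hcut : ∀ v, (G.induce {x | x ≠ v}).Connected
    · exact h2 V G hc hP (by omega) hn hcut
    push Not at hcut
    obtain ⟨v, hv⟩ := hcut
    -- a vertex different from `v`
    have hnt : Nontrivial V := by
      rw [← Finite.one_lt_card_iff_nontrivial]
      omega
    obtain ⟨u, hu⟩ := exists_ne v
    have huX : u ∉ ({v} : Set V) := hu
    set K := compSet G {v} u with hK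
    have huK : u ∈ K := ReachOff.refl huX
    have hvK : v ∉ K := fun h => (ReachOff.right h) rfl
    -- another vertex outside `K` and different from `v`
    obtain ⟨w, hwv, hwK⟩ : ∃ w, w ≠ v ∧ w ∉ K := by
      by_contra hh
      push Not at hh
      apply hv
      have h1 := comp_connected (G := G) huX
      have h3 : compSet G {v} u = {x | x ≠ v} := by
        ext x
        exact ⟨fun hx => fun h => (ReachOff.right hx) h, fun hx => hh x hx⟩
      rw [← h3]
      exact h1
    set A := insert v K with hA
    set B := Kᶜ with hB
    have hU : A ∪ B = Set.univ := by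
      ext x
      simp only [hA, hB, Set.mem_union, Set.mem_insert_iff, Set.mem_compl_iff, Set.mem_univ,
        iff_true]
      tauto
    have hI : A ∩ B = {v} := by
      ext x
      simp only [hA, hB, Set.mem_inter_iff, Set.mem_insert_iff, Set.mem_compl_iff,
        Set.mem_singleton_iff]
      constructor
      · rintro ⟨h | h, h'⟩
        · exact h
        · exact absurd h h'
      · rintro rfl
        exact ⟨Or.inl rfl, hvK⟩
    have hno : ∀ a b, a ∉ B → b ∉ A → ¬ G.Adj a b := by
      intro a b ha hb hab
      have haK : a ∈ K := by
        by_contra h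
        exact ha h
      have hbv : b ≠ v := fun h => hb (Or.inl h)
      have hbK : b ∉ K := fun h => hb (Or.inr h)
      exact hbK (ReachOff.trans haK (ReachOff.adj (ReachOff.right haK) (by simpa using hbv) hab))
    have hcA : (G.induce A).Connected := side_connected hc hU hI hno
    have hcB : (G.induce B).Connected := side_connected hc (by rw [Set.union_comm]; exact hU)
      (by rw [Set.inter_comm]; exact hI) (fun a b ha hb h => hno b a hb ha h.symm)
    have hvA : v ∈ A := Or.inl rfl
    have huA : u ∈ A := Or.inr huK
    have hvB : v ∈ B := hvK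
    have hwB : w ∈ B := hwK
    have hwA : w ∉ A := fun h => h.elim hwv hwK
    have huB : u ∉ B := fun h => h huK
    have c2 : ∀ (S : Set V) (x y : V), x ∈ S → y ∈ S → x ≠ y → 2 ≤ Nat.card S := by
      intro S x y hx hy hne
      have : Nontrivial S := ⟨⟨x, hx⟩, ⟨y, hy⟩, fun h => hne (congrArg Subtype.val h)⟩
      exact Finite.one_lt_card_iff_nontrivial.2 this
    have clt : ∀ (S : Set V) (x : V), x ∉ S → Nat.card S < Nat.card V := by
      intro S x hx
      have h5 : S.ncard < (Set.univ : Set V).ncard :=
        Set.ncard_lt_ncard ⟨Set.subset_univ _, fun h => hx (h trivial)⟩ (Set.toFinite _)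
      rw [Set.ncard_univ] at h5
      exact h5
    have hcA2 := clt A w hwA
    have hcB2 := clt B u huB
    have hPA := pl_induce hc hcA (c2 A v u hvA huA hu.symm) hP
    have hPB := pl_induce hc hcB (c2 B v w hvB hwB hwv.symm) hP
    exact distortion_vertexSum (by linarith) hc hU hI hno
      (ih _ (hm ▸ hcA2) A (G.induce A) rfl hcA hPA (by omega))
      (ih _ (hm ▸ hcB2) B (G.induce B) rfl hcB hPB (by omega))
  intro V _ G hc hP hn
  exact main _ V G rfl hc hP hn

end Vale.Agent.P235.H555
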